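import Vale.Agent.Lib.P344.Gain

namespace Vale.Agent.Results.P344.B_pathgain

open Vale.Agent.Lib.P344

/-- Every linear circuit with unrestricted complex coefficients computing `F_n` up to nonzero
constants `c j` on the outputs satisfies, for every set `S` of at most `n` gates: the number of
additions and subtractions outside `S`, plus the sum over the outputs of the base-two logarithm of
`max 1 (γ j / ‖c j‖)`, is at least `((n - |S|) / 2) * log₂ n - log₂ (n choose |S|)`, where `γ j` is the
largest gain of a directed path from an input to output `j` avoiding `S`. -/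
theorem result {n : ℕ} (hn : 2 ≤ n) {ζ : ℂ} (hζ : IsPrimitiveRoot ζ n) (c : Fin n → ℂ)
    (hc : ∀ j, c j ≠ 0) (G : ℕ) (gate : ℕ → Gate) (out : Fin n → ℕ)
    (hcomp : ∀ (x : Fin n → ℂ) (j : Fin n),
      table n gate x G (out j) = c j * ∑ k : Fin n, ζ ^ ((j : ℕ) * (k : ℕ)) * x k)
    (S : Finset ℕ) (hS : S.card ≤ n) :
    ((n : ℝ) - S.card) / 2 * Real.logb 2 n - Real.logb 2 (n.choose S.card) ≤
      ((Finset.range G \ S).filter fun t => (gate t).isAdditive = true).card +
      ∑ j : Fin n, Real.logb 2 (max 1 (gain n gate S G (out j) / ‖c j‖)) :=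
  gain_log hn hζ c hc G gate out hcomp S hS

end Vale.Agent.Results.P344.B_pathgain
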