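import Vale.Agent.Results.P344.A_conditioning
import Vale.Agent.Results.P344.B_pathgain
import Vale.Agent.Results.P344.C_coefficients

namespace Vale.Agent.Results.P344.AAA_union

open Vale.Agent.Lib.P344

/-- Three complementary lower bounds for every linear circuit computing the discrete Fourier
transform, with arbitrary complex coefficients, in one statement, for outputs given up to nonzero
constants `c j`. For every set `S` of at most `n` gates, the quantity
`((n - |S|) / 2) * log₂ n - log₂ (n choose |S|)` is at most each of: the sum over the gates outside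
`S` of the logarithm of the condition number; the number of additions outside `S` plus the sum over
the outputs of the logarithm of the relative path gain in the circuit without `S`; and (for `c = 1`)
the number of additions outside `S` plus the sum over the scalar gates outside `S` of
`log₂ (max 1 ‖λ‖)`. -/
theorem result {n : ℕ} (hn : 2 ≤ n) {ζ : ℂ} (hζ : IsPrimitiveRoot ζ n) (G : ℕ) (gate : ℕ → Gate)
    (out : Fin n → ℕ) (S : Finset ℕ) (hS : S.card ≤ n) :
    (∀ c : Fin n → ℂ, (∀ j, c j ≠ 0) →
      (∀ (x : Fin n → ℂ) (j : Fin n),
        table n gate x G (out j) = c j * ∑ k : Fin n, ζ ^ ((j : ℕ) * (k : ℕ)) * x k) →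
      ((n : ℝ) - S.card) / 2 * Real.logb 2 n - Real.logb 2 (n.choose S.card) ≤
        ∑ t ∈ Finset.range G \ S, Real.logb 2 ((gate t).cond (forms n gate t)) ∧
      ((n : ℝ) - S.card) / 2 * Real.logb 2 n - Real.logb 2 (n.choose S.card) ≤
        ((Finset.range G \ S).filter fun t => (gate t).isAdditive = true).card +
        ∑ j : Fin n, Real.logb 2 (max 1 (gain n gate S G (out j) / ‖c j‖))) ∧
    ((∀ (x : Fin n → ℂ) (j : Fin n),
        table n gate x G (out j) = ∑ k : Fin n, ζ ^ ((j : ℕ) * (k : ℕ)) * x k) →
      ((n : ℝ) - S.card) / 2 * Real.logb 2 n - Real.logb 2 (n.choose S.card) ≤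
        ∑ t ∈ Finset.range G \ S, (gate t).coefCost) :=
  ⟨fun c hc hcomp => ⟨A_conditioning.result hn hζ c hc G gate out hcomp S hS,
      B_pathgain.result hn hζ c hc G gate out hcomp S hS⟩,
    fun hcomp => C_coefficients.result hn hζ G gate out hcomp S hS⟩

end Vale.Agent.Results.P344.AAA_union
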