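import Vale.Agent.Lib.P344.Main

namespace Vale.Agent.Results.P344.A_conditioning

open Vale.Agent.Lib.P344

/-- Every linear circuit with unrestricted complex coefficients computing `F_n` (or any multiple of
it by a nonzero diagonal matrix, for instance the normalized transform) satisfies: for every set `S`
of gates, the sum over the gates outside `S` of the base-two logarithm of the sup-norm condition
number is at least `((n - |S|) / 2) * log₂ n - log₂ (n choose |S|)`. -/
theorem result {n : ℕ} (hn : 2 ≤ n) {ζ : ℂ} (hζ : IsPrimitiveRoot ζ n) (c : Fin n → ℂ)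
    (hc : ∀ j, c j ≠ 0) (G : ℕ) (gate : ℕ → Gate) (out : Fin n → ℕ)
    (hcomp : ∀ (x : Fin n → ℂ) (j : Fin n),
      table n gate x G (out j) = c j * ∑ k : Fin n, ζ ^ ((j : ℕ) * (k : ℕ)) * x k)
    (S : Finset ℕ) (hS : S.card ≤ n) :
    ((n : ℝ) - S.card) / 2 * Real.logb 2 n - Real.logb 2 (n.choose S.card) ≤
      ∑ t ∈ Finset.range G \ S, Real.logb 2 ((gate t).cond (forms n gate t)) :=
  main_log hn hζ c hc G gate out hcomp S hS

end Vale.Agent.Results.P344.A_conditioning
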